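import Mathlib

/-! Row 27, block Fin (owner helper70): primes for which `a` is not a primitive root. -/

set_option autoImplicit false

namespace Crest.Agent.R27.Fin

open Finset
open scoped Classical

/-- contrapositive of `orderOf_eq_of_pow_and_pow_div_prime`, `ZMod.pow_card_sub_one_eq_one` -/
theorem exists_prime_pow {y : ℕ} (hy : y.Prime) {b : ZMod y} (hb : b ≠ 0)
    (h : orderOf b ≠ y - 1) : ∃ l : ℕ, l.Prime ∧ l ∣ y - 1 ∧ b ^ ((y - 1) / l) = 1 := by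
  haveI := Fact.mk hy
  by_contra hc
  push Not at hc
  exact h (orderOf_eq_of_pow_and_pow_div_prime (by have := hy.two_le; omega)
    (ZMod.pow_card_sub_one_eq_one hb) hc)

/-- Euler: `legendreSym.eq_pow`, `jacobiSym.legendreSym.to_jacobiSym`, `ZMod.neg_one_ne_one` -/
theorem euler_ne {a : ℤ} {y : ℕ} (hy : y.Prime) (h3 : 3 ≤ y) (hJ : jacobiSym a y = -1) :
    ¬ (y : ℤ) ∣ a ∧ (a : ZMod y) ^ ((y - 1) / 2) ≠ 1 := by
  haveI := Fact.mk hy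
  haveI : Fact (2 < y) := ⟨h3⟩
  rw [← jacobiSym.legendreSym.to_jacobiSym] at hJ
  have ho : y % 2 = 1 := hy.eq_two_or_odd.resolve_left (by omega)
  have h1 := legendreSym.eq_pow y a
  rw [hJ, show y / 2 = (y - 1) / 2 by omega] at h1
  refine ⟨fun hd => ?_, fun he => ?_⟩
  · rw [(legendreSym.eq_zero_iff y a).2 ((ZMod.intCast_zmod_eq_zero_iff_dvd a y).2 hd)] at hJ
    omega
  · rw [he, Int.cast_neg, Int.cast_one] at h1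
    exact ZMod.neg_one_ne_one h1

/-- `2 ^ ω(n) ≤ ∏ p ≤ n` (`Nat.prod_primeFactors_dvd`, `pow_card_le_prod`) -/
theorem omega_le {n k : ℕ} (hn : n ≠ 0) (h : n ≤ 2 ^ k) : n.primeFactors.card ≤ k := by
  have h1 : 2 ^ n.primeFactors.card ≤ ∏ p ∈ n.primeFactors, p :=
    Finset.pow_card_le_prod _ _ _ fun p hp => (Nat.prime_of_mem_primeFactors hp).two_le
  have h2 := Nat.le_of_dvd (Nat.pos_of_ne_zero hn) (Nat.prod_primeFactors_dvd n)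
  exact (Nat.pow_le_pow_iff_right one_lt_two).1 (h1.trans (h2.trans h))

/-- `S ⊆ ⋃_{1 ≤ m ≤ M} primeFactors |a^m - 1|`, `0 < |a^m - 1| ≤ (|a|+1)^m ≤ 2^((|a|+1) M)` -/
theorem card_small {a : ℤ} (ha : 2 ≤ a.natAbs) (M : ℕ) (S : Finset ℕ)
    (hS : ∀ y ∈ S, y.Prime ∧ ∃ m : ℕ, 1 ≤ m ∧ m ≤ M ∧ (a : ZMod y) ^ m = 1) :
    S.card ≤ (a.natAbs + 1) * M ^ 2 := by
  have hne : ∀ m : ℕ, 1 ≤ m → (a ^ m - 1).natAbs ≠ 0 := by
    intro m hm h0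
    have h1 : a ^ m = 1 := sub_eq_zero.1 (Int.natAbs_eq_zero.1 h0)
    have h2 : a.natAbs ^ m = 1 := by rw [← Int.natAbs_pow, h1]; rfl
    have := (Nat.pow_eq_one.1 h2).resolve_right (by omega)
    omega
  have hsub : S ⊆ (Icc 1 M).biUnion fun m => (a ^ m - 1).natAbs.primeFactors := by
    intro y hy
    obtain ⟨hp, m, h1, h2, h3⟩ := hS y hy
    refine Finset.mem_biUnion.2 ⟨m, Finset.mem_Icc.2 ⟨h1, h2⟩,
      Nat.mem_primeFactors.2 ⟨hp, ?_, hne m h1⟩⟩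
    rw [← Int.natCast_dvd, ← ZMod.intCast_zmod_eq_zero_iff_dvd]
    push_cast
    rw [h3, sub_self]
  have hb : ∀ m ∈ Icc 1 M, (a ^ m - 1).natAbs.primeFactors.card ≤ (a.natAbs + 1) * M := by
    intro m hm
    obtain ⟨h1, h2⟩ := Finset.mem_Icc.1 hm
    refine omega_le (hne m h1) ?_
    have e1 : (a ^ m - 1).natAbs ≤ a.natAbs ^ m + 1 := by
      refine (Int.natAbs_sub_le _ _).trans ?_
      rw [Int.natAbs_pow]; rfl
    have e2 : a.natAbs ^ m < (a.natAbs + 1) ^ m := Nat.pow_lt_pow_left (Nat.lt_succ_self _) (by omega)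
    have e3 : (a.natAbs + 1) ^ m ≤ (2 ^ (a.natAbs + 1)) ^ m :=
      Nat.pow_le_pow_left Nat.lt_two_pow_self.le _
    have e4 : (2 ^ (a.natAbs + 1)) ^ m ≤ 2 ^ ((a.natAbs + 1) * M) := by
      rw [← pow_mul]
      exact Nat.pow_le_pow_right two_pos (Nat.mul_le_mul_left _ h2)
    omega
  refine (Finset.card_le_card hsub).trans ((Finset.card_biUnion_le_card_mul _ _ _ hb).trans ?_)
  rw [Nat.card_Icc, Nat.add_sub_cancel]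
  exact le_of_eq (by ring)

/-- `sum_Ioc_inv_sq_le_sub`: `∑_{N < l ≤ N'} 1/l² ≤ 1/N`, `N = ⌊P₁⌋₊ ≥ P₁/2` -/
theorem sum_inv_sq_le {P₁ : ℝ} (h1 : 1 ≤ P₁) (T : Finset ℕ) (hT : ∀ l ∈ T, P₁ < (l : ℝ)) :
    ∑ l ∈ T, 1 / (l : ℝ) ^ 2 ≤ 2 / P₁ := by
  have hN : 1 ≤ ⌊P₁⌋₊ := Nat.le_floor (by simpa using h1)
  have hN' : (1 : ℝ) ≤ ⌊P₁⌋₊ := by exact_mod_cast hN
  have hsub : T ⊆ Ioc ⌊P₁⌋₊ (max ⌊P₁⌋₊ (T.sup id)) := fun l hl =>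
    mem_Ioc.2 ⟨(Nat.floor_lt (by linarith)).2 (hT l hl), le_max_of_le_right (le_sup (f := id) hl)⟩
  have h2 := sum_Ioc_inv_sq_le_sub (α := ℝ) (k := ⌊P₁⌋₊) (n := max ⌊P₁⌋₊ (T.sup id)) (by omega)
    (le_max_left _ _)
  have h3 : (0 : ℝ) ≤ ((max ⌊P₁⌋₊ (T.sup id) : ℕ) : ℝ)⁻¹ := by positivity
  have h4 : ((⌊P₁⌋₊ : ℕ) : ℝ)⁻¹ ≤ 2 / P₁ := by
    rw [inv_eq_one_div, div_le_div_iff₀ (by linarith) (by linarith)]
    linarith [Nat.lt_floor_add_one P₁]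
  calc ∑ l ∈ T, 1 / (l : ℝ) ^ 2 ≤ ∑ l ∈ Ioc ⌊P₁⌋₊ (max ⌊P₁⌋₊ (T.sup id)), ((l : ℝ) ^ 2)⁻¹ := by
        simp only [one_div]
        exact sum_le_sum_of_subset_of_nonneg hsub fun _ _ _ => by positivity
    _ ≤ 2 / P₁ := by linarith

/-- `N = ⌊X⌋₊`; `S ⊆ ⋃_l S_l` over the primes `l ∈ (P₁, P₂]` (at most `P₂` of them);
`#S_l ≤ ∑ log y` because `y ≥ 3`; `N^θ ≤ X^(max θ 0)`, `l^C ≤ P₂^k`; `sum_inv_sq_le`. -/
theorem card_kum {a : ℤ} {θ C : ℝ} {q₀ k : ℕ} (hC : 0 < C) (hk : C ≤ k)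
    (h : ∀ q : ℕ, q.Prime → q₀ ≤ q → ∀ X : ℕ, 2 ≤ X →
      ∑ p ∈ (Icc 1 X).filter
          (fun p : ℕ => p.Prime ∧ q ∣ p - 1 ∧ ((a : ℤ) : ZMod p) ^ ((p - 1) / q) = 1), Real.log p ≤
        C * ((X : ℝ) / (q : ℝ) ^ 2 + (X : ℝ) ^ θ * (q : ℝ) ^ C))
    {X P₁ P₂ : ℝ} (hX : 2 ≤ X) (h0 : (q₀ : ℝ) ≤ P₁) (h1 : 1 ≤ P₁) (h2 : 1 ≤ P₂) (S : Finset ℕ)
    (hS : ∀ y ∈ S, y.Prime ∧ 3 ≤ y ∧ (y : ℝ) ≤ X ∧ ∃ l : ℕ, l.Prime ∧ P₁ < (l : ℝ) ∧ (l : ℝ) ≤ P₂ ∧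
      l ∣ y - 1 ∧ (a : ZMod y) ^ ((y - 1) / l) = 1) :
    (S.card : ℝ) ≤ C * (2 * X / P₁ + X ^ max θ 0 * P₂ ^ (k + 1)) := by
  have hX0 : 0 < X := by linarith
  have hN : 2 ≤ ⌊X⌋₊ := Nat.le_floor (by simpa using hX)
  have hN' : (2 : ℝ) ≤ ⌊X⌋₊ := by exact_mod_cast hN
  have hNX : ((⌊X⌋₊ : ℕ) : ℝ) ≤ X := Nat.floor_le hX0.le
  set T : Finset ℕ := (Icc 1 ⌊P₂⌋₊).filter fun l : ℕ => l.Prime ∧ P₁ < (l : ℝ) with hT
  set F : ℕ → Finset ℕ := fun q => ((Icc 1 ⌊X⌋₊).filter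
    (fun p : ℕ => p.Prime ∧ q ∣ p - 1 ∧ ((a : ℤ) : ZMod p) ^ ((p - 1) / q) = 1)).filter (3 ≤ ·) with hF
  have hsub : S ⊆ T.biUnion F := fun y hy => by
    obtain ⟨y1, y2, y3, l, l1, l2, l3, l4, l5⟩ := hS y hy
    refine mem_biUnion.2 ⟨l, mem_filter.2 ⟨mem_Icc.2 ⟨l1.one_le, Nat.le_floor l3⟩, l1, l2⟩, ?_⟩
    exact mem_filter.2 ⟨mem_filter.2 ⟨mem_Icc.2 ⟨y1.one_le, Nat.le_floor y3⟩, y1, l4, l5⟩, y2⟩
  have hθ : ((⌊X⌋₊ : ℕ) : ℝ) ^ θ ≤ X ^ max θ 0 :=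
    (Real.rpow_le_rpow_of_exponent_le (by linarith) (le_max_left θ 0)).trans
      (Real.rpow_le_rpow (by linarith) hNX (le_max_right _ _))
  have hone : ∀ l ∈ T, ((F l).card : ℝ) ≤ C * (X * (1 / (l : ℝ) ^ 2) + X ^ max θ 0 * P₂ ^ k) := by
    intro l hl
    obtain ⟨l0, l1, l2⟩ := mem_filter.1 hl
    have l3 : (l : ℝ) ≤ P₂ := (Nat.cast_le.2 (mem_Icc.1 l0).2).trans (Nat.floor_le (by linarith))
    have l4 : (1 : ℝ) ≤ l := by linarith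
    have b1 := h l l1 (by exact_mod_cast (h0.trans l2.le)) ⌊X⌋₊ hN
    have b2 : ((F l).card : ℝ) ≤ ∑ p ∈ F l, Real.log p := by
      rw [card_eq_sum_ones, Nat.cast_sum]
      refine sum_le_sum fun p hp => ?_
      have p3 : (3 : ℝ) ≤ p := by exact_mod_cast (mem_filter.1 hp).2
      rw [Nat.cast_one, Real.le_log_iff_exp_le (by linarith)]
      linarith [Real.exp_one_lt_d9]
    have b3 := sum_le_sum_of_subset_of_nonneg (f := fun p : ℕ => Real.log p) (filter_subset (3 ≤ ·) ((Icc 1 ⌊X⌋₊).filter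
      (fun p : ℕ => p.Prime ∧ l ∣ p - 1 ∧ ((a : ℤ) : ZMod p) ^ ((p - 1) / l) = 1)))
      fun p _ _ => Real.log_natCast_nonneg p
    have b4 : (l : ℝ) ^ C ≤ P₂ ^ k := by
      rw [← Real.rpow_natCast]
      exact (Real.rpow_le_rpow_of_exponent_le l4 hk).trans
        (Real.rpow_le_rpow (by linarith) l3 (Nat.cast_nonneg k))
    refine (b2.trans b3).trans (b1.trans (mul_le_mul_of_nonneg_left (add_le_add ?_ ?_) hC.le))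
    · rw [mul_one_div]
      exact div_le_div_of_nonneg_right hNX (by positivity)
    · exact mul_le_mul hθ b4 (by positivity) (by positivity)
  have hTc : (T.card : ℝ) ≤ P₂ := by
    have : T.card ≤ ⌊P₂⌋₊ := (card_filter_le _ _).trans (by simp)
    exact (Nat.cast_le.2 this).trans (Nat.floor_le (by linarith))
  have hs := sum_inv_sq_le h1 T fun l hl => (mem_filter.1 hl).2.2
  calc (S.card : ℝ) ≤ ∑ l ∈ T, ((F l).card : ℝ) := by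
        exact_mod_cast (card_le_card hsub).trans card_biUnion_le
    _ ≤ ∑ l ∈ T, C * (X * (1 / (l : ℝ) ^ 2) + X ^ max θ 0 * P₂ ^ k) := sum_le_sum hone
    _ = C * (X * ∑ l ∈ T, 1 / (l : ℝ) ^ 2 + T.card * (X ^ max θ 0 * P₂ ^ k)) := by
        rw [← mul_sum, sum_add_distrib, ← mul_sum, sum_const, nsmul_eq_mul]
    _ ≤ C * (X * (2 / P₁) + P₂ * (X ^ max θ 0 * P₂ ^ k)) := by gcongr
    _ = _ := by ring

end Crest.Agent.R27.Fin
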