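import Mathlib

/-! Row 27, block Fin (owner helper70): the residue class in which `a` is a non-residue. -/

set_option autoImplicit false

namespace Crest.Agent.R27.Fin

/-- `jacobiSym.mod_right` reduces to `P = 4b-1`; there `4b ≡ 1`, so `J(4b|P) = 1` (`jacobiSym.mod_left`),
and `J(4|P) = 1` (`jacobiSym.at_four`), `jacobiSym.mul_left`. -/
theorem jac_neg_one {b P : ℕ} (hb : 1 ≤ b) (h : 4 * b ∣ P + 1) : jacobiSym (b : ℤ) P = 1 := by
  obtain ⟨c, hc⟩ := h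
  obtain ⟨n, hn⟩ : ∃ n, 4 * b = n + 1 := ⟨4 * b - 1, by omega⟩
  obtain ⟨c, rfl⟩ : ∃ d, c = d + 1 := ⟨c - 1, by
    rcases c with _ | c
    · omega
    · rfl⟩
  have hP : P = n + 4 * b * c := by
    rw [mul_add, mul_one] at hc
    omega
  have hn' : Odd n := Nat.odd_iff.2 (by omega)
  have hodd : Odd P := by
    rw [hP, mul_assoc]
    exact Nat.odd_iff.2 (by omega)
  have hm : P % (4 * b) = n := by
    rw [hP, Nat.add_mul_mod_self_left]
    exact Nat.mod_eq_of_lt (by omega)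
  rw [jacobiSym.mod_right' b hodd, hm]
  have h1 : jacobiSym (4 * b) n = jacobiSym 1 n := by
    refine jacobiSym.mod_left' ?_
    have : (4 * b : ℤ) = 1 + n := by omega
    rw [this, Int.add_emod_right]
  rwa [jacobiSym.mul_left, jacobiSym.at_four hn', one_mul, jacobiSym.one_left] at h1

/-- `FiniteField.exists_nonsquare` gives a non-square `g`; `4g` is another one (`l ≠ 2, 3`), so one of
them is not `-1`; take `u = -g`.  (`legendreSym.eq_neg_one_iff`, `jacobiSym.legendreSym.to_jacobiSym`) -/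
theorem exists_nonres {l : ℕ} (hl : l.Prime) (h5 : 5 ≤ l) :
    ∃ u : ℕ, ¬ l ∣ u ∧ ¬ u ≡ 1 [MOD l] ∧ jacobiSym (-(u : ℤ)) l = -1 := by
  have := Fact.mk hl
  have hc : ∀ n : ℕ, 0 < n → n < 5 → (n : ZMod l) ≠ 0 := fun n h1 h2 h3 => by
    have := Nat.le_of_dvd h1 ((ZMod.natCast_eq_zero_iff n l).1 h3)
    omega
  obtain ⟨g, hg, hg'⟩ : ∃ g : ZMod l, ¬ IsSquare g ∧ g ≠ -1 := by
    obtain ⟨g, hg⟩ := FiniteField.exists_nonsquare (F := ZMod l) (by
      rw [ZMod.ringChar_zmod_n]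
      omega)
    by_cases h : g = -1
    · refine ⟨4 * g, ?_, fun h' => ?_⟩
      · rintro ⟨r, hr⟩
        have h2 : (2 : ZMod l) ≠ 0 := by exact_mod_cast hc 2 (by norm_num) (by norm_num)
        refine hg ⟨r / 2, ?_⟩
        field_simp
        linear_combination hr
      · have h3 : (3 : ZMod l) ≠ 0 := by exact_mod_cast hc 3 (by norm_num) (by norm_num)
        refine h3 ?_
        rw [h] at h'
        linear_combination -h'
    · exact ⟨g, hg, h⟩
  have hu : (((-g).val : ℕ) : ZMod l) = -g := ZMod.natCast_zmod_val _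
  refine ⟨(-g).val, fun h => ?_, fun h => ?_, ?_⟩
  · have h1 := (ZMod.natCast_eq_zero_iff _ l).2 h
    rw [hu, neg_eq_zero] at h1
    exact hg (h1 ▸ IsSquare.zero)
  · have h1 := (ZMod.natCast_eq_natCast_iff _ _ l).2 h
    rw [hu, Nat.cast_one] at h1
    exact hg' (by rw [← h1, neg_neg])
  · rw [← jacobiSym.legendreSym.to_jacobiSym, legendreSym.eq_neg_one_iff]
    rw [Int.cast_neg, Int.cast_natCast, hu, neg_neg]
    exact hg

/-- reciprocity for `P ≡ 3 (mod 4)`: `jacobiSym.quadratic_reciprocity_one_mod_four`,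
`quadratic_reciprocity_three_mod_four`, `jacobiSym.at_neg_one`, `ZMod.χ₄_nat_one_mod_four`, … -/
theorem jac_flip {l P : ℕ} (hl : Odd l) (hP : P % 4 = 3) :
    jacobiSym (l : ℤ) P = jacobiSym (-(P : ℤ)) l := by
  have hP' : Odd P := Nat.odd_iff.2 (by omega)
  rw [jacobiSym.neg _ hl]
  rcases Nat.odd_mod_four_iff.1 (Nat.odd_iff.1 hl) with h | h
  · rw [jacobiSym.quadratic_reciprocity_one_mod_four h hP', ZMod.χ₄_nat_one_mod_four h, one_mul]
  · rw [jacobiSym.quadratic_reciprocity_three_mod_four h hP, ZMod.χ₄_nat_three_mod_four h, neg_one_mul]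

theorem clsb_cop {e m P : ℕ} (hP : P % 2 = 1) (hm : m ∣ P + 1) : Nat.Coprime (2 ^ e * m) P := by
  refine Nat.Coprime.mul_left (Nat.Coprime.pow_left _ ?_) ?_
  · exact Nat.coprime_two_left.2 (Nat.odd_iff.2 hP)
  · exact Nat.Coprime.coprime_dvd_left hm (by simp)

theorem clsb_not_dvd {l P : ℕ} (hl : l.Prime) (h2 : l ≠ 2) (hP : 1 ≤ P) (h : l ∣ P + 1) :
    ¬ l ∣ P - 1 := by
  intro h'
  have h3 : l ∣ (P + 1) - (P - 1) := Nat.dvd_sub h h'
  have h4 : (P + 1) - (P - 1) = 2 := by omega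
  rw [h4] at h3
  exact h2 ((Nat.prime_dvd_prime_iff_eq hl Nat.prime_two).1 h3)

theorem clsb_dvd_odd {l e m : ℕ} (hl : l.Prime) (h2 : l ≠ 2) (h : l ∣ (2 ^ e * m) ^ 2) : l ∣ m := by
  rcases (Nat.Prime.dvd_mul hl).1 (hl.dvd_of_dvd_pow h) with h | h
  · exact absurd ((Nat.prime_dvd_prime_iff_eq hl Nat.prime_two).1 (hl.dvd_of_dvd_pow h)) h2
  · exact h

theorem clsb_sq {s P : ℕ} (h : Nat.Coprime s P) : jacobiSym ((s : ℤ) ^ 2) P = 1 :=
  jacobiSym.sq_one' (by simpa [Int.gcd_natCast_natCast] using h)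

/-- `a = s² d`, `d = 2b` with `b` odd.  Write `a = 2^e m`, `m` odd (`Nat.exists_eq_two_pow_mul_odd`);
`Nat.chineseRemainder`: `P ≡ m - 1 (mod m)`, `P ≡ 3 (mod 8)`.  `b ∣ m`, so `4b ∣ P+1`; `J(2|P) = -1`
(`jacobiSym.at_two`), `J(s²|P) = 1` (`jacobiSym.sq_one'`). -/
theorem exP_two {s b : ℕ} (hs : 1 ≤ s) (hb : Odd b) : ∃ P : ℕ, P % 4 = 3 ∧
    (∀ l : ℕ, l.Prime → l ≠ 2 → l ∣ s ^ 2 * (2 * b) → ¬ l ∣ P - 1) ∧
    jacobiSym ((s ^ 2 * (2 * b) : ℕ) : ℤ) P = -1 := by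
  obtain ⟨e, m, hm, rfl⟩ := Nat.exists_eq_two_pow_mul_odd (n := s) (by omega)
  have hmb : (m * b) % 2 = 1 := Nat.odd_iff.1 (hm.mul hb)
  obtain ⟨P, hP⟩ : ∃ P, P + 1 = 4 * (m * b) := ⟨4 * (m * b) - 1, by omega⟩
  have hP8 : P % 8 = 3 := by omega
  refine ⟨P, by omega, ?_, ?_⟩
  · intro l hl h2 h
    refine clsb_not_dvd hl h2 (by omega) ?_
    rw [hP]
    rcases (Nat.Prime.dvd_mul hl).1 h with h | h
    · exact ((clsb_dvd_odd hl h2 h).mul_right b).mul_left 4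
    · rcases (Nat.Prime.dvd_mul hl).1 h with h | h
      · exact absurd ((Nat.prime_dvd_prime_iff_eq hl Nat.prime_two).1 h) h2
      · exact (h.mul_left m).mul_left 4
  · have h1 : Nat.Coprime (2 ^ e * m) P :=
      clsb_cop (by omega) (by rw [hP]; exact (Dvd.intro b rfl).mul_left 4)
    have h2 : jacobiSym (b : ℤ) P = 1 :=
      jac_neg_one hb.pos (by rw [hP]; exact Nat.mul_dvd_mul_left 4 (Dvd.intro_left m rfl))
    have h3 : jacobiSym 2 P = -1 := by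
      rw [jacobiSym.at_two (Nat.odd_iff.2 (by omega)), ZMod.χ₈_nat_eq_if_mod_eight,
        if_neg (by omega), if_neg (by omega)]
    rw [Nat.cast_mul, Nat.cast_mul 2 b, Nat.cast_pow, jacobiSym.mul_left, jacobiSym.mul_left,
      clsb_sq h1, h2, Nat.cast_ofNat, h3]
    norm_num

/-- `a = 3 s² = 2^e m`, `m` odd, `3 ∣ m`; `P ≡ -1 (mod m)`, `P ≡ 5 (mod 8)`;
`J(3|P) = J(P|3) = J(2|3) = -1`. -/
theorem exP_three {s : ℕ} (hs : 1 ≤ s) : ∃ P : ℕ, P % 8 = 5 ∧
    (∀ l : ℕ, l.Prime → l ≠ 2 → l ∣ s ^ 2 * 3 → ¬ l ∣ P - 1) ∧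
    jacobiSym ((s ^ 2 * 3 : ℕ) : ℤ) P = -1 := by
  obtain ⟨e, m, hm, rfl⟩ := Nat.exists_eq_two_pow_mul_odd (n := s) (by omega)
  have hm8 : (m * m) % 8 = 1 := by
    have h1 : m % 2 = 1 := Nat.odd_iff.1 hm
    have h2 : m % 8 = 1 ∨ m % 8 = 3 ∨ m % 8 = 5 ∨ m % 8 = 7 := by omega
    rcases h2 with h | h | h | h <;> rw [Nat.mul_mod, h]
  obtain ⟨P, hP⟩ : ∃ P, P + 1 = 6 * (m * m) := ⟨6 * (m * m) - 1, by omega⟩
  have hP8 : P % 8 = 5 := by omega
  have hP3 : P % 3 = 2 := by omega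
  refine ⟨P, hP8, ?_, ?_⟩
  · intro l hl h2 h
    refine clsb_not_dvd hl h2 (by omega) ?_
    rw [hP]
    rcases (Nat.Prime.dvd_mul hl).1 h with h | h
    · exact ((clsb_dvd_odd hl h2 h).mul_right m).mul_left 6
    · exact (h.trans (by norm_num : 3 ∣ 6)).mul_right _
  · have h1 : Nat.Coprime (2 ^ e * m) P :=
      clsb_cop (by omega) (by rw [hP]; exact (Dvd.intro m rfl).mul_left 6)
    have h3 : jacobiSym ((3 : ℕ) : ℤ) P = -1 := by
      rw [jacobiSym.quadratic_reciprocity_one_mod_four' (by decide) (by omega),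
        jacobiSym.mod_left' (a₂ := 2) (by omega),
        jacobiSym.at_two (by decide), ZMod.χ₈_nat_eq_if_mod_eight]
      norm_num
    rw [Nat.cast_mul, Nat.cast_pow, jacobiSym.mul_left, clsb_sq h1, h3]
    norm_num

/-- `a = s² q b = q^e m`, `q ∤ m` (`Nat.exists_eq_pow_mul_and_not_dvd`), `b ∣ m`;
`P ≡ -1 (mod 4m)`, `P ≡ u (mod q)` with `u` from `exists_nonres`; `jac_neg_one`, `jac_flip`. -/
theorem exP_big {s q b : ℕ} (hs : 1 ≤ s) (hq : q.Prime) (h5 : 5 ≤ q) (hb : ¬ q ∣ b) :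
    ∃ P : ℕ, P % 4 = 3 ∧ (∀ l : ℕ, l.Prime → l ≠ 2 → l ∣ s ^ 2 * (q * b) → ¬ l ∣ P - 1) ∧
      jacobiSym ((s ^ 2 * (q * b) : ℕ) : ℤ) P = -1 := by
  have hb0 : b ≠ 0 := fun h => hb (h ▸ dvd_zero q)
  have ha0 : s ^ 2 * (q * b) ≠ 0 := mul_ne_zero (pow_ne_zero _ (by omega)) (mul_ne_zero hq.ne_zero hb0)
  obtain ⟨e, m, hm, he⟩ := Nat.exists_eq_pow_mul_and_not_dvd ha0 q hq.ne_one
  have hm0 : m ≠ 0 := fun h => hm (h ▸ dvd_zero q)
  obtain ⟨u, hu1, hu2, hu3⟩ := exists_nonres hq h5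
  have hq4 : Nat.Coprime (4 * m) q := by
    refine Nat.Coprime.mul_left ?_ ((Nat.Prime.coprime_iff_not_dvd hq).2 hm).symm
    refine ((Nat.Prime.coprime_iff_not_dvd hq).2 fun h => ?_).symm
    have := Nat.le_of_dvd (by norm_num) h
    omega
  obtain ⟨P, h1, h2⟩ := Nat.chineseRemainder hq4 (4 * m - 1) u
  have h3 : 4 * m ∣ P + 1 := by
    have h4 := h1.add_right 1
    rw [Nat.sub_add_cancel (by omega)] at h4
    exact (Nat.modEq_zero_iff_dvd.1 (h4.trans (Nat.modEq_zero_iff_dvd.2 dvd_rfl)))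
  have hP : P % 4 = 3 := by
    have := (Dvd.intro m rfl).trans h3
    omega
  have key : ∀ p : ℕ, p.Prime → p ≠ q → p ∣ s ^ 2 * (q * b) → p ∣ P + 1 := by
    intro p hp hpq h4
    rw [he] at h4
    rcases (Nat.Prime.dvd_mul hp).1 h4 with h6 | h6
    · exact absurd ((Nat.prime_dvd_prime_iff_eq hp hq).1 (hp.dvd_of_dvd_pow h6)) hpq
    · exact (h6.mul_left 4).trans h3
  have hbm : b ∣ m := by
    have h4 : b ∣ q ^ e * m := he ▸ Dvd.dvd.mul_left (Dvd.intro_left q rfl) _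
    exact (Nat.Coprime.pow_right e ((Nat.Prime.coprime_iff_not_dvd hq).2 hb).symm).dvd_of_dvd_mul_left h4
  refine ⟨P, hP, fun l hl hl2 hla h4 => ?_, ?_⟩
  · by_cases hlq : l = q
    · subst hlq
      exact hu2 (h2.symm.trans ((Nat.modEq_iff_dvd' (by omega)).2 h4).symm)
    · have h6 := key l hl hlq hla
      have h7 : l ∣ 2 := by
        have h8 := Nat.dvd_sub h6 h4
        rwa [show P + 1 - (P - 1) = 2 by omega] at h8
      exact hl2 ((Nat.prime_dvd_prime_iff_eq hl Nat.prime_two).1 h7)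
  · have hsP : Nat.Coprime s P := by
      refine Nat.coprime_of_dvd fun p hp h6 h7 => ?_
      by_cases hpq : p = q
      · subst hpq
        exact hu1 (Nat.modEq_zero_iff_dvd.1 (h2.symm.trans (Nat.modEq_zero_iff_dvd.2 h7)))
      · have h8 := key p hp hpq (Dvd.dvd.mul_right (h6.trans (dvd_pow_self s two_ne_zero)) _)
        exact hp.not_dvd_one ((Nat.dvd_add_right h7).1 h8)
    have hq' : jacobiSym (q : ℤ) P = -1 := by
      rw [jac_flip (hq.odd_of_ne_two (by omega)) hP, ← hu3]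
      refine jacobiSym.mod_left' ?_
      exact (Int.natCast_modEq_iff.2 h2).neg
    push_cast
    rw [jacobiSym.mul_left, jacobiSym.mul_left, jacobiSym.sq_one' (by simpa using hsP), hq',
      jac_neg_one (by omega) ((Nat.mul_dvd_mul_left 4 hbm).trans h3)]
    norm_num

/-- `a < 0`: `P = 4|a| - 1`, `J(a|P) = J(-1|P) J(|a| |P) = -1`.  `a > 0`: `Nat.sq_mul_squarefree`
gives `a = s² d`, `d ≠ 1` squarefree; `2 ∣ d`, or a prime `q ≥ 5` divides `d`, or `d = 3`. -/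
theorem exP (a : ℤ) (hsq : ¬ IsSquare a) : ∃ P : ℕ, (P % 4 = 3 ∨ P % 8 = 5) ∧
    (∀ l : ℕ, l.Prime → l ≠ 2 → l ∣ a.natAbs → ¬ l ∣ P - 1) ∧ jacobiSym a P = -1 := by
  have ha0 : a ≠ 0 := by rintro rfl; exact hsq IsSquare.zero
  rcases Int.natAbs_eq a with h | h
  · obtain ⟨n, rfl⟩ : ∃ n : ℕ, a = n := ⟨_, h⟩
    rw [Int.natAbs_natCast]
    have hn : 0 < n := by omega
    obtain ⟨d, s, hds, hd⟩ := Nat.sq_mul_squarefree n
    have hs : 1 ≤ s := by
      rcases Nat.eq_zero_or_pos s with rfl | h0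
      · simp at hds; omega
      · exact h0
    have hd1 : d ≠ 1 := by
      rintro rfl
      refine hsq ⟨s, ?_⟩
      rw [← hds]; push_cast; ring
    subst hds
    by_cases h2 : 2 ∣ d
    · obtain ⟨b, rfl⟩ := h2
      have hb : Odd b := by
        rw [← Nat.not_even_iff_odd]
        rintro ⟨c, rfl⟩
        have := hd 2 ⟨c, by ring⟩
        simp at this
      obtain ⟨P, h1, h3, h4⟩ := exP_two hs hb
      exact ⟨P, Or.inl h1, h3, h4⟩
    by_cases h5 : ∃ q : ℕ, q.Prime ∧ 5 ≤ q ∧ q ∣ d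
    · obtain ⟨q, hq, hq5, b, rfl⟩ := h5
      have hb : ¬ q ∣ b := by
        rintro ⟨c, rfl⟩
        exact hq.ne_one (Nat.isUnit_iff.1 (hd q ⟨c, by ring⟩))
      obtain ⟨P, h1, h3, h4⟩ := exP_big hs hq hq5 hb
      exact ⟨P, Or.inl h1, h3, h4⟩
    · have h3 : ∀ q : ℕ, q.Prime → q ∣ d → q = 3 := by
        intro q hq hqd
        have h6 : q < 5 := by
          by_contra h7
          exact h5 ⟨q, hq, by omega, hqd⟩
        have h7 := hq.two_le
        interval_cases q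
        · exact absurd hqd h2
        · rfl
        · exact absurd hq (by norm_num)
      have hd3 : d = 3 := by
        obtain ⟨q, hq, b, hb⟩ := Nat.exists_prime_and_dvd hd1
        have := h3 q hq ⟨b, hb⟩
        subst this
        by_cases hb1 : b = 1
        · rw [hb, hb1]
        · obtain ⟨q', hq', c, hc⟩ := Nat.exists_prime_and_dvd hb1
          have := h3 q' hq' ⟨3 * c, by rw [hb, hc]; ring⟩
          subst this
          have := hd 3 ⟨c, by rw [hb, hc]; ring⟩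
          simp at this
      subst hd3
      obtain ⟨P, h1, h3, h4⟩ := exP_three hs
      exact ⟨P, Or.inr h1, h3, h4⟩
  · obtain ⟨n, rfl⟩ : ∃ n : ℕ, a = -n := ⟨_, h⟩
    rw [Int.natAbs_neg, Int.natAbs_natCast]
    have hn : 1 ≤ n := by omega
    obtain ⟨P, hP⟩ : ∃ P, P + 1 = 4 * n := ⟨4 * n - 1, by omega⟩
    have hP4 : P % 4 = 3 := by omega
    refine ⟨P, Or.inl hP4, fun l hl h2 h => clsb_not_dvd hl h2 (by omega) (hP ▸ h.mul_left 4), ?_⟩
    rw [jacobiSym.neg _ (Nat.odd_iff.2 (by omega)), ZMod.χ₄_nat_three_mod_four hP4,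
      jac_neg_one hn (by rw [hP])]
    norm_num

/-- `r = 2, c = (P-1)/2` or `r = 4, c = (P-1)/4`; `c` is odd; `J(a|P) ≠ 0` gives `gcd(a,P) = 1`
(`jacobiSym.eq_zero_iff_not_coprime`); the last part is `jacobiSym.mod_right`. -/
theorem cls (a : ℤ) (hsq : ¬ IsSquare a) : ∃ r c : ℕ, (r = 2 ∨ r = 4) ∧
    Nat.Coprime c (4 * a.natAbs) ∧ Nat.Coprime (r * c + 1) (4 * a.natAbs) ∧
    ∀ m : ℕ, m ≡ c [MOD 4 * a.natAbs] → jacobiSym a (r * m + 1) = -1 := by
  obtain ⟨P, hP, h1, h2⟩ := exP a hsq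
  obtain ⟨r, c, hr, hc, hrc⟩ : ∃ r c : ℕ, (r = 2 ∨ r = 4) ∧ c % 2 = 1 ∧ r * c + 1 = P := by
    rcases hP with h | h
    · exact ⟨2, (P - 1) / 2, Or.inl rfl, by omega, by omega⟩
    · exact ⟨4, (P - 1) / 4, Or.inr rfl, by omega, by omega⟩
  have hPodd : P % 2 = 1 := by omega
  have h4 : ∀ n : ℕ, n % 2 = 1 → Nat.Coprime n 4 := fun n hn =>
    (Nat.Coprime.pow_right 2 (Nat.coprime_two_right.2 (Nat.odd_iff.2 hn)) : Nat.Coprime n (2 ^ 2))
  refine ⟨r, c, hr, Nat.Coprime.mul_right (h4 c hc) ?_, ?_, fun m hm => ?_⟩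
  · refine Nat.coprime_of_dvd fun l hl hlc hla => h1 l hl ?_ hla ?_
    · rintro rfl; omega
    · rw [← hrc, Nat.add_sub_cancel]; exact hlc.mul_left r
  · rw [hrc]
    refine Nat.Coprime.mul_right (h4 P hPodd) ?_
    by_contra h
    have : NeZero P := ⟨by omega⟩
    have h0 : jacobiSym a P = 0 := jacobiSym.eq_zero_iff_not_coprime.2 (by
      intro h'
      refine h ?_
      rw [Nat.coprime_comm]
      simpa [Int.gcd] using h')
    rw [h0] at h2
    norm_num at h2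
  · have hodd : Odd (r * m + 1) := by
      rcases hr with rfl | rfl <;> exact Nat.odd_iff.2 (by omega)
    have hmod : r * m + 1 ≡ P [MOD 4 * a.natAbs] := by
      rw [← hrc]; exact (hm.mul_left r).add_right 1
    have e : jacobiSym a (r * m + 1) = jacobiSym a P := by
      rw [jacobiSym.mod_right a hodd, jacobiSym.mod_right a (Nat.odd_iff.2 hPodd), hmod]
    rw [← h2]
    exact_mod_cast e

end Crest.Agent.R27.Fin
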