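import Mathlib

/-! Row 27, block Fin (owner helper70): from the weighted count to the number of primes. -/

set_option autoImplicit false

namespace Crest.Agent.R27.Fin

open Finset ArithmeticFunction
open scoped Classical

/-- the primes `y = r D n + 1` in `(X/2, X)`, `n` prime -/
noncomputable def Gs (r W c : ℕ) (𝒟 : Finset ℕ) (X : ℝ) : Finset ℕ :=
  (Icc 1 ⌊X⌋₊).filter fun y => y.Prime ∧ X / 2 < (y : ℝ) ∧ (y : ℝ) < X ∧
    ∃ D ∈ 𝒟, ∃ n : ℕ, n.Prime ∧ y = r * D * n + 1 ∧ D * n ≡ c [MOD W]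

/-- the range of `n` in `StMain27` -/
noncomputable def Ns (r W c D : ℕ) (X : ℝ) : Finset ℕ :=
  (Icc 1 ⌊X⌋₊).filter fun n => X / 2 < ((r * D * n + 1 : ℕ) : ℝ) ∧ ((r * D * n + 1 : ℕ) : ℝ) ≤ X ∧
    D * n ≡ c [MOD W]

/-- the `n` that give a member of `Gs` -/
noncomputable def Ng (r W c D : ℕ) (X : ℝ) : Finset ℕ :=
  (Ns r W c D X).filter fun n => n.Prime ∧ (r * D * n + 1).Prime ∧ ((r * D * n + 1 : ℕ) : ℝ) < X

/-- `sum_image`, `Chebyshev.psi_sub_theta_eq_sum_not_prime`, `Chebyshev.psi_sub_theta_le` -/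
theorem sum_nonprime {X : ℝ} (hX : 1 ≤ X) (S : Finset ℕ) (f : ℕ → ℕ) (hf : Set.InjOn f S)
    (hS : ∀ n ∈ S, 1 ≤ f n ∧ (f n : ℝ) ≤ X ∧ ¬ (f n).Prime) :
    ∑ n ∈ S, Λ (f n) ≤ 2 * √X * Real.log X := by
  have h1 : ∑ n ∈ S, Λ (f n) = ∑ m ∈ S.image f, Λ m := (sum_image (f := fun m => Λ m) hf).symm
  rw [h1]
  refine le_trans ?_ (Chebyshev.psi_sub_theta_le hX)
  rw [Chebyshev.psi_sub_theta_eq_sum_not_prime]
  refine sum_le_sum_of_subset_of_nonneg ?_ fun _ _ _ => vonMangoldt_nonneg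
  intro m hm
  obtain ⟨n, hn, rfl⟩ := mem_image.1 hm
  obtain ⟨a, b, c⟩ := hS n hn
  exact mem_filter.2 ⟨mem_Ioc.2 ⟨a, Nat.le_floor b⟩, c⟩

/-- `Λ ≤ log X` on `[1, X]` (`vonMangoldt_le_log`).  A term outside `Ng` has `n` not prime, or
`y = r D n + 1` not prime (`sum_nonprime` twice), or `y = X` (at most one `n`). -/
theorem row_le (r W c D : ℕ) {X : ℝ} (hX : 1 ≤ X) (hr : 1 ≤ r) (hD : 1 ≤ D) :
    ∑ n ∈ Ns r W c D X, Λ n * Λ (r * D * n + 1) ≤
      (Ng r W c D X).card * Real.log X ^ 2 + 5 * √X * Real.log X ^ 2 := by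
  set L := Real.log X with hL
  have hL0 : 0 ≤ L := Real.log_nonneg hX
  have hlog : ∀ m : ℕ, 1 ≤ m → (m : ℝ) ≤ X → Λ m ≤ L := fun m h1 h2 =>
    vonMangoldt_le_log.trans (Real.log_le_log (by exact_mod_cast h1) h2)
  have hmem : ∀ n ∈ Ns r W c D X, 1 ≤ n ∧ (n : ℝ) ≤ X ∧ ((r * D * n + 1 : ℕ) : ℝ) ≤ X := by
    intro n hn
    obtain ⟨h1, -, h2, -⟩ := mem_filter.1 hn
    obtain ⟨h3, h4⟩ := mem_Icc.1 h1
    exact ⟨h3, (Nat.le_floor_iff (by linarith)).1 h4, h2⟩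
  have hinj : Function.Injective fun n : ℕ => r * D * n + 1 := by
    intro a b h
    have h' : r * D * a = r * D * b := Nat.add_right_cancel h
    exact Nat.eq_of_mul_eq_mul_left (Nat.mul_pos hr hD) h'
  have hpt : ∀ n ∈ Ns r W c D X, Λ n * Λ (r * D * n + 1) ≤
      (if n.Prime ∧ (r * D * n + 1).Prime ∧ ((r * D * n + 1 : ℕ) : ℝ) < X then L ^ 2 else 0) +
      (if ¬ n.Prime then Λ n else 0) * L + (if ¬ (r * D * n + 1).Prime then Λ (r * D * n + 1) else 0) * L +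
      (if ((r * D * n + 1 : ℕ) : ℝ) = X then L ^ 2 else 0) := by
    intro n hn
    obtain ⟨h1, h2, h3⟩ := hmem n hn
    have a0 : 0 ≤ Λ n := vonMangoldt_nonneg
    have b0 : 0 ≤ Λ (r * D * n + 1) := vonMangoldt_nonneg
    have a1 := hlog n h1 h2
    have b1 := hlog _ (Nat.le_add_left 1 _) h3
    have c1 : Λ n * Λ (r * D * n + 1) ≤ L ^ 2 := by rw [sq]; exact mul_le_mul a1 b1 b0 hL0
    have c2 : Λ n * Λ (r * D * n + 1) ≤ Λ n * L := mul_le_mul_of_nonneg_left b1 a0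
    have c3 : Λ n * Λ (r * D * n + 1) ≤ Λ (r * D * n + 1) * L := by
      rw [mul_comm]; exact mul_le_mul_of_nonneg_left a1 b0
    have d0 : 0 ≤ L ^ 2 := sq_nonneg _
    have d1 : 0 ≤ Λ n * L := mul_nonneg a0 hL0
    have d2 : 0 ≤ Λ (r * D * n + 1) * L := mul_nonneg b0 hL0
    by_cases e1 : n.Prime <;> by_cases e2 : (r * D * n + 1).Prime <;>
      rcases h3.lt_or_eq with e3 | e3 <;>
      first
        | (simp only [e1, e2, e3, e3.ne, true_and, false_and, and_false, and_true, not_true, not_false_iff,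
            if_true, if_false, zero_mul, add_zero, zero_add]; linarith)
        | (simp only [e1, e2, e3, lt_irrefl, true_and, false_and, and_false, and_true, not_true,
            not_false_iff, if_true, if_false, zero_mul, add_zero, zero_add]; linarith)
  refine (sum_le_sum hpt).trans ?_
  rw [sum_add_distrib, sum_add_distrib, sum_add_distrib, ← sum_mul, ← sum_mul, ← sum_filter, ← sum_filter,
    ← sum_filter, ← sum_filter, sum_const, sum_const, nsmul_eq_mul, nsmul_eq_mul]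
  have s1 := sum_nonprime hX ((Ns r W c D X).filter fun n => ¬ n.Prime) id (Function.injective_id.injOn)
    fun n hn => by
      obtain ⟨h1, h2⟩ := mem_filter.1 hn
      exact ⟨(hmem n h1).1, (hmem n h1).2.1, h2⟩
  have s2 := sum_nonprime hX ((Ns r W c D X).filter fun n => ¬ (r * D * n + 1).Prime) _ hinj.injOn
    fun n hn => by
      obtain ⟨h1, h2⟩ := mem_filter.1 hn
      exact ⟨Nat.le_add_left 1 _, (hmem n h1).2.2, h2⟩
  have s3 : (((Ns r W c D X).filter fun n => ((r * D * n + 1 : ℕ) : ℝ) = X).card : ℝ) ≤ 1 := by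
    have : ((Ns r W c D X).filter fun n => ((r * D * n + 1 : ℕ) : ℝ) = X).card ≤ 1 := by
      refine card_le_one.2 fun a ha b hb => hinj ?_
      have h1 := (mem_filter.1 ha).2
      have h2 := (mem_filter.1 hb).2
      exact_mod_cast h1.trans h2.symm
    exact_mod_cast this
  have s4 : 1 ≤ √X := Real.one_le_sqrt.2 hX
  simp only [id] at s1
  rw [← hL] at s1 s2
  have t1 := mul_le_mul_of_nonneg_right s1 hL0
  have t2 := mul_le_mul_of_nonneg_right s2 hL0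
  have t3 := mul_le_mul_of_nonneg_right (s3.trans s4) (sq_nonneg L)
  unfold Ng
  linarith

/-- `card_sigma`, `card_le_card_of_injOn (fun z => r * z.1 * z.2 + 1)`: `n > E` (else
`X/2 < r E² + 1 ≤ 2 r E²`), so `D n = D' n'` with `n, n'` prime and `D' ≤ E < n` gives `n ∣ n'`. -/
theorem pairs_le (r W c : ℕ) (𝒟 : Finset ℕ) {X E : ℝ} (hr : 1 ≤ r)
    (hD : ∀ D ∈ 𝒟, 1 ≤ D ∧ (D : ℝ) ≤ E) (hE : 4 * r * E ^ 2 ≤ X) :
    ∑ D ∈ 𝒟, (Ng r W c D X).card ≤ (Gs r W c 𝒟 X).card := by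
  rw [← card_sigma]
  refine card_le_card_of_injOn (fun z => r * z.1 * z.2 + 1) (fun z hz => ?_) fun z hz z' hz' h => ?_
  · obtain ⟨h1, h2⟩ := mem_sigma.1 (mem_coe.1 hz)
    obtain ⟨h3, h4, h5, h6⟩ := mem_filter.1 h2
    obtain ⟨-, h7, h8, h9⟩ := mem_filter.1 h3
    exact mem_coe.2 (mem_filter.2 ⟨mem_Icc.2 ⟨Nat.le_add_left 1 _, Nat.le_floor h8⟩, h5, h7, h6,
      z.1, h1, z.2, h4, rfl, h9⟩)
  · obtain ⟨D, n⟩ := z
    obtain ⟨D', n'⟩ := z'
    obtain ⟨h1, h2⟩ := mem_sigma.1 (mem_coe.1 hz)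
    obtain ⟨h1', h2'⟩ := mem_sigma.1 (mem_coe.1 hz')
    obtain ⟨h3, h4, -⟩ := mem_filter.1 h2
    obtain ⟨-, h4', -⟩ := mem_filter.1 h2'
    obtain ⟨-, h7, -⟩ := mem_filter.1 h3
    dsimp only at *
    have hn : E < n := by
      by_contra! hn
      have a1 : (1 : ℝ) ≤ r := by exact_mod_cast hr
      have a2 : (1 : ℝ) ≤ D := by exact_mod_cast (hD D h1).1
      have a3 := (hD D h1).2
      have a4 : (D : ℝ) * n ≤ E * E := mul_le_mul a3 hn (Nat.cast_nonneg n) (by linarith)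
      have a5 : (r : ℝ) * (D * n) ≤ r * (E * E) := mul_le_mul_of_nonneg_left a4 (by linarith)
      have a6 : 1 ≤ (r : ℝ) * (E * E) := one_le_mul_of_one_le_of_one_le a1
        (one_le_mul_of_one_le_of_one_le (by linarith) (by linarith))
      push_cast at h7
      nlinarith
    have h5 : D * n = D' * n' := Nat.eq_of_mul_eq_mul_left hr (by
      rw [← mul_assoc, ← mul_assoc]
      exact Nat.add_right_cancel h)
    have h6 : n = n' := by
      rcases (Nat.Prime.dvd_mul h4).1 (h5 ▸ dvd_mul_left n D) with h6 | h6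
      · have a1 : (n : ℝ) ≤ D' := by exact_mod_cast Nat.le_of_dvd (hD D' h1').1 h6
        linarith [(hD D' h1').2]
      · exact (Nat.prime_dvd_prime_iff_eq h4 h4').1 h6
    subst h6
    rw [Nat.eq_of_mul_eq_mul_right h4.pos h5]

/-- `row_le`, `pairs_le`, and `#𝒟 ≤ E` (`𝒟 ⊆ Icc 1 ⌊E⌋₊`) -/
theorem count_le (r W c : ℕ) (𝒟 : Finset ℕ) {X E : ℝ} (hX : 1 ≤ X) (hr : 1 ≤ r) (hE0 : 0 ≤ E)
    (hD : ∀ D ∈ 𝒟, 1 ≤ D ∧ (D : ℝ) ≤ E) (hE : 4 * r * E ^ 2 ≤ X) :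
    ∑ D ∈ 𝒟, ∑ n ∈ Ns r W c D X, Λ n * Λ (r * D * n + 1) ≤
      (Gs r W c 𝒟 X).card * Real.log X ^ 2 + 5 * E * √X * Real.log X ^ 2 := by
  refine (sum_le_sum fun D h => row_le r W c D hX hr (hD D h).1).trans ?_
  have h1 : (𝒟.card : ℝ) ≤ E := by
    have h2 : 𝒟 ⊆ Icc 1 ⌊E⌋₊ := fun D h => mem_Icc.2 ⟨(hD D h).1, Nat.le_floor (hD D h).2⟩
    have h3 := card_le_card h2
    rw [Nat.card_Icc, Nat.add_sub_cancel] at h3
    exact (Nat.cast_le.2 h3).trans (Nat.floor_le hE0)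
  have h2 : (∑ D ∈ 𝒟, ((Ng r W c D X).card : ℝ)) ≤ (Gs r W c 𝒟 X).card := by
    exact_mod_cast pairs_le r W c 𝒟 hr hD hE
  rw [sum_add_distrib, ← sum_mul, sum_const, nsmul_eq_mul]
  refine add_le_add (mul_le_mul_of_nonneg_right h2 (by positivity))
    ((mul_le_mul_of_nonneg_right h1 (by positivity)).trans_eq (by ring))

end Crest.Agent.R27.Fin
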