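import Crest.Agent.R27.ArithIface
import Crest.Agent.R27.Fin.Cls
import Crest.Agent.R27.Fin.Count
import Crest.Agent.R27.Fin.Bad
import Crest.Agent.R26.Abs.Grp
import Crest.Agent.R26.W.Grp

/-! Row 27, block Fin (owner helper70): S0037 from `StKum` and `StMain27`. -/

set_option autoImplicit false

namespace Crest.Agent.R27.Fin

open Finset Filter Crest.Agent.R26
open scoped Classical

/-- the set counted in S0037 -/
def Tset (a : ℤ) (x : ℝ) : Set ℕ :=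
  {p : ℕ | p.Prime ∧ x < (p : ℝ) ∧ (p : ℝ) < 2 * x ∧ ¬ ((p : ℤ) ∣ a) ∧
    orderOf ((a : ℤ) : ZMod p) = p - 1}

theorem Tset_finite (a : ℤ) (x : ℝ) : (Tset a x).Finite := by
  refine (Set.finite_Iic ⌊2 * x⌋₊).subset fun p hp => ?_
  exact Nat.le_floor hp.2.2.1.le

theorem split_le {a : ℤ} (ha : 2 ≤ a.natAbs) {θ C : ℝ} {q₀ k : ℕ} (hC : 0 < C) (hk : C ≤ k)
    (h : ∀ q : ℕ, q.Prime → q₀ ≤ q → ∀ X : ℕ, 2 ≤ X →
      ∑ p ∈ (Icc 1 X).filter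
          (fun p : ℕ => p.Prime ∧ q ∣ p - 1 ∧ ((a : ℤ) : ZMod p) ^ ((p - 1) / q) = 1), Real.log p ≤
        C * ((X : ℝ) / (q : ℝ) ^ 2 + (X : ℝ) ^ θ * (q : ℝ) ^ C))
    {r W c : ℕ} (hr : r = 2 ∨ r = 4)
    (hJ : ∀ m : ℕ, m ≡ c [MOD W] → jacobiSym a (r * m + 1) = -1) (𝒟 : Finset ℕ)
    {x E P₁ P₂ : ℝ} (hx : 1 ≤ x) (hE : 0 ≤ E) (h0 : (q₀ : ℝ) ≤ P₁) (h1 : 1 ≤ P₁) (h2 : 1 ≤ P₂)
    (hD : ∀ D ∈ 𝒟, 1 ≤ D ∧ (D : ℝ) ≤ E ∧ ∀ l : ℕ, l.Prime → l ∣ D → P₁ < (l : ℝ) ∧ (l : ℝ) ≤ P₂) :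
    ((Gs r W c 𝒟 (2 * x)).card : ℝ) ≤ ((Tset a x).ncard : ℝ) + (a.natAbs + 1) * (4 * E) ^ 2 +
      C * (2 * (2 * x) / P₁ + (2 * x) ^ max θ 0 * P₂ ^ (k + 1)) := by
  set G := Gs r W c 𝒟 (2 * x) with hG
  set B1 := G.filter (fun y : ℕ => y.Prime ∧ ∃ m : ℕ, 1 ≤ m ∧ m ≤ ⌊4 * E⌋₊ ∧ (a : ZMod y) ^ m = 1)
    with hB1
  set B2 := G.filter (fun y : ℕ => y.Prime ∧ 3 ≤ y ∧ (y : ℝ) ≤ 2 * x ∧ ∃ l : ℕ, l.Prime ∧
    P₁ < (l : ℝ) ∧ (l : ℝ) ≤ P₂ ∧ l ∣ y - 1 ∧ (a : ZMod y) ^ ((y - 1) / l) = 1) with hB2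
  have e1 : B1.card ≤ (a.natAbs + 1) * ⌊4 * E⌋₊ ^ 2 :=
    card_small ha _ B1 fun y hy => (mem_filter.1 hy).2
  have e2 := card_kum hC hk h (X := 2 * x) (by linarith) h0 h1 h2 B2 fun y hy => (mem_filter.1 hy).2
  have hsub : G ⊆ (Tset_finite a x).toFinset ∪ B1 ∪ B2 := by
    intro y hy
    have hy' := hy
    rw [hG, Gs, mem_filter] at hy'
    obtain ⟨-, hp, hlo, hhi, D, hDm, n, hn, hyeq, hmod⟩ := hy'
    obtain ⟨hD1, hDE, hDl⟩ := hD D hDm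
    have hr2 : 2 ≤ r := by omega
    have hr4 : r ≤ 4 := by omega
    have hy1 : y - 1 = r * D * n := by omega
    have hy3 : 3 ≤ y := by
      have : 2 * 1 * 1 ≤ r * D * n := Nat.mul_le_mul (Nat.mul_le_mul hr2 hD1) hn.one_lt.le
      omega
    have hJy : jacobiSym a y = -1 := by
      rw [hyeq, mul_assoc]
      exact hJ _ hmod
    obtain ⟨hnd, hhalf⟩ := euler_ne hp hy3 hJy
    by_cases ho : orderOf (a : ZMod y) = y - 1
    · refine mem_union_left _ (mem_union_left _ ?_)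
      rw [Set.Finite.mem_toFinset]
      exact ⟨hp, by linarith, hhi, hnd, ho⟩
    have hb : (a : ZMod y) ≠ 0 := fun h0 => hnd ((ZMod.intCast_zmod_eq_zero_iff_dvd a y).1 h0)
    obtain ⟨l, hl, hld, hpow⟩ := exists_prime_pow hp hb ho
    have hld' : l ∣ r * D * n := hy1 ▸ hld
    rcases (Nat.Prime.dvd_mul hl).1 hld' with hrd | hln
    · rcases (Nat.Prime.dvd_mul hl).1 hrd with hlr | hlD
      · exfalso
        have : l = 2 := by
          have h4 : l ∣ 2 ^ 2 := by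
            rcases hr with rfl | rfl
            · exact hlr.trans (by norm_num)
            · exact hlr
          exact (Nat.prime_dvd_prime_iff_eq hl Nat.prime_two).1 (hl.dvd_of_dvd_pow h4)
        subst this
        exact hhalf hpow
      · refine mem_union_right _ ?_
        rw [hB2, mem_filter]
        exact ⟨hy, hp, hy3, hhi.le, l, hl, (hDl l hl hlD).1, (hDl l hl hlD).2, hld, hpow⟩
    · have hln' : l = n := (Nat.prime_dvd_prime_iff_eq hl hn).1 hln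
      subst hln'
      refine mem_union_left _ (mem_union_right _ ?_)
      rw [hB1, mem_filter]
      rw [hy1, Nat.mul_div_cancel _ hl.pos] at hpow
      refine ⟨hy, hp, r * D, Nat.mul_pos (by omega) hD1, Nat.le_floor ?_, hpow⟩
      have : (r : ℝ) ≤ 4 := by exact_mod_cast hr4
      push_cast
      exact mul_le_mul this hDE (Nat.cast_nonneg _) (by norm_num)
  have e3 : G.card ≤ (Tset a x).ncard + B1.card + B2.card := by
    rw [Set.ncard_eq_toFinset_card _ (Tset_finite a x)]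
    refine (card_le_card hsub).trans ((card_union_le _ _).trans ?_)
    exact Nat.add_le_add_right (card_union_le _ _) _
  have e3' : (G.card : ℝ) ≤ (Tset a x).ncard + B1.card + B2.card := by exact_mod_cast e3
  have e1' : (B1.card : ℝ) ≤ (a.natAbs + 1) * (4 * E) ^ 2 := by
    have hf : (⌊4 * E⌋₊ : ℝ) ≤ 4 * E := Nat.floor_le (by linarith)
    calc (B1.card : ℝ) ≤ ((a.natAbs + 1) * ⌊4 * E⌋₊ ^ 2 : ℕ) := by exact_mod_cast e1
      _ = (a.natAbs + 1) * (⌊4 * E⌋₊ : ℝ) ^ 2 := by push_cast; ring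
      _ ≤ _ := by gcongr
  linarith

/-- `A · Ptop^k · X^θ · log² X ≤ κ X` -/
theorem ev_small (k : ℕ) {A θ κ : ℝ} (hA : 0 ≤ A) (hθ : θ < 1) (hκ : 0 < κ) :
    ∀ᶠ X : ℝ in atTop, A * Ptop X ^ k * X ^ θ * Real.log X ^ 2 ≤ κ * X := by
  have hδ : 0 < (1 - θ) / 2 := by linarith
  filter_upwards [W.ev_exp_le (k + 1) hδ, W.ev_log_le_exp 1 2 (θ := 1 / 10) (by norm_num),
    W.ev_rpow_le A (a := θ + (1 - θ) / 2) (b := 1) (by linarith) hκ, eventually_gt_atTop 0]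
    with X h1 h2 h3 hX
  rw [Real.rpow_one, Real.rpow_add hX] at h3
  have hP : 0 < Ptop X := Real.exp_pos _
  have h4 : Ptop X ^ k * Real.log X ^ 2 ≤ X ^ ((1 - θ) / 2) := by
    refine le_trans ?_ h1
    rw [pow_succ _ k]
    rw [one_mul] at h2
    exact mul_le_mul_of_nonneg_left h2 (by positivity)
  have hXθ : 0 ≤ X ^ θ := Real.rpow_nonneg hX.le _
  calc A * Ptop X ^ k * X ^ θ * Real.log X ^ 2 = A * (X ^ θ * (Ptop X ^ k * Real.log X ^ 2)) := by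
        ring
    _ ≤ A * (X ^ θ * X ^ ((1 - θ) / 2)) := by gcongr
    _ ≤ _ := h3

/-- the final inequality between real numbers -/
theorem fin_arith {κ X L G T e₁ e₂ e₃ e₄ : ℝ} (hL : 0 < L) (h1 : κ * X ≤ G * L ^ 2 + e₁)
    (h2 : G ≤ T + e₂ + (e₃ + e₄)) (b1 : e₁ ≤ κ / 8 * X) (b2 : e₂ * L ^ 2 ≤ κ / 8 * X)
    (b3 : e₃ * L ^ 2 ≤ κ / 8 * X) (b4 : e₄ * L ^ 2 ≤ κ / 8 * X) : κ / 2 * X ≤ T * L ^ 2 := by
  have : G * L ^ 2 ≤ (T + e₂ + (e₃ + e₄)) * L ^ 2 := mul_le_mul_of_nonneg_right h2 (by positivity)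
  nlinarith

theorem ev_lower (hK : StKum) (hM : StMain27) (a : ℤ) (ha : a ≠ -1) (hsq : ¬ IsSquare a) :
    ∃ κ : ℝ, 0 < κ ∧ ∀ᶠ X : ℝ in atTop, κ * X ≤ ((Tset a (X / 2)).ncard : ℝ) * Real.log X ^ 2 := by
  have ha0 : a ≠ 0 := by
    rintro rfl
    exact hsq ⟨0, by simp⟩
  have ha1 : a ≠ 1 := by
    rintro rfl
    exact hsq ⟨1, by simp⟩
  have ha2 : 2 ≤ a.natAbs := by omega
  obtain ⟨r, c, hr, hc1, hc2, hJ⟩ := cls a hsq
  obtain ⟨K, -, hM⟩ := hM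
  obtain ⟨κ, hκ, hev⟩ := hM r (4 * a.natAbs) c (by omega)
    (by rcases hr with rfl | rfl <;> norm_num) (by omega) hc1 hc2
  obtain ⟨θ, C, q₀, hθ, hC, hKum⟩ := hK a ha hsq
  have hκ8 : 0 < κ / 8 := by positivity
  refine ⟨κ / 2, by positivity, ?_⟩
  filter_upwards [hev, W.ev_VV K 1, W.ev_one_le_log, eventually_ge_atTop 2,
    ev_small (2 * (K + 1)) (A := 16) (θ := 0) (κ := 1) (by norm_num) (by norm_num) one_pos,
    ev_small (K + 1) (A := 5) (θ := 1 / 2) (by norm_num) (by norm_num) hκ8,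
    ev_small (2 * (K + 1)) (A := (a.natAbs + 1) * 16) (θ := 0) (by positivity) (by norm_num) hκ8,
    ev_small (⌈C⌉₊ + 1) (A := C) (θ := max θ 0) hC.le (max_lt hθ one_pos) hκ8,
    W.ev_log_le_exp (16 * C / κ) 2 (W.gam_pos K), W.ev_log_le_exp q₀ 0 (W.gam_pos K)]
    with X hev hV hL hX b0 b1 b2 b4 b3 hq
  have hX0 : 0 < X := by linarith
  have hL0 : 0 < Real.log X := by linarith
  have hPt : 1 ≤ Ptop X := Real.one_le_exp (Real.rpow_nonneg hL0.le _)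
  have hP1 : 1 ≤ P1 K X := Real.one_le_exp (Real.rpow_nonneg hL0.le _)
  have hVt : 1 ≤ Vtot (grp K X) := by
    unfold Vtot
    calc (1 : ℝ) = ∏ _g : Fin (K + 1), (1 : ℝ) := by simp
      _ ≤ _ := prod_le_prod (fun _ _ => zero_le_one) fun g _ => hV g
  set E := Ptop X ^ (K + 1) with hE
  have hE0 : 0 ≤ E := by positivity
  have hE2 : Ptop X ^ (2 * (K + 1)) = E ^ 2 := by rw [hE, ← pow_mul, mul_comm]
  set 𝒟 := (Dvec (grp K X)).image pv with h𝒟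
  have hD : ∀ D ∈ 𝒟, 1 ≤ D ∧ (D : ℝ) ≤ E ∧
      ∀ l : ℕ, l.Prime → l ∣ D → P1 K X < (l : ℝ) ∧ (l : ℝ) ≤ Ptop X := by
    intro D hD
    obtain ⟨p, hp, rfl⟩ := mem_image.1 hD
    refine ⟨pv_pos (grp_prime K X) hp, pv_le hL hp, fun l hl hd => ?_⟩
    obtain ⟨g, rfl⟩ := prime_dvd_pv (grp_prime K X) hp hl hd
    exact ⟨grp_gt hL (mem_Dvec.1 hp g), grp_le hL (mem_Dvec.1 hp g)⟩
  have hr1 : 1 ≤ r := by omega
  have hr4 : (r : ℝ) ≤ 4 := by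
    have : r ≤ 4 := by omega
    exact_mod_cast this
  rw [Real.rpow_zero, hE2] at b0 b2
  have hL2 : 1 ≤ Real.log X ^ 2 := one_le_pow₀ hL
  have hEX : 4 * r * E ^ 2 ≤ X := by
    have hE2' : 0 ≤ E ^ 2 := by positivity
    calc 4 * r * E ^ 2 ≤ 4 * 4 * E ^ 2 := by gcongr
      _ = 16 * E ^ 2 * 1 * 1 := by ring
      _ ≤ 16 * E ^ 2 * 1 * Real.log X ^ 2 := by gcongr
      _ ≤ X := by linarith
  have c1 := count_le r (4 * a.natAbs) c 𝒟 (X := X) (E := E) (by linarith) hr1 hE0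
    (fun D h => ⟨(hD D h).1, (hD D h).2.1⟩) hEX
  rw [h𝒟, sum_image (pv_injOn (grp_prime K X) (grp_disj K hL))] at c1
  have c2 : κ * X ≤ (Gs r (4 * a.natAbs) c 𝒟 X).card * Real.log X ^ 2 +
      5 * E * √X * Real.log X ^ 2 := by
    refine le_trans ?_ (le_trans hev c1)
    calc κ * X = κ * 1 * X := by ring
      _ ≤ _ := by gcongr
  rw [pow_zero, mul_one] at hq
  have c3 := split_le ha2 hC (Nat.le_ceil C) hKum hr hJ 𝒟 (x := X / 2) (E := E) (P₁ := P1 K X)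
    (by linarith) hE0 hq hP1 hPt hD
  rw [show 2 * (X / 2) = X by ring, mul_add C] at c3
  refine fin_arith hL0 c2 c3 ?_ ?_ ?_ ?_
  · rw [Real.sqrt_eq_rpow]
    exact b1
  · refine le_trans (le_of_eq ?_) b2
    ring
  · have hP0 : 0 < P1 K X := by linarith
    have b3' : 16 * C / κ * Real.log X ^ 2 ≤ P1 K X := b3
    rw [div_mul_eq_mul_div, div_le_iff₀ hκ] at b3'
    have : C * (2 * X / P1 K X) * Real.log X ^ 2 = (16 * C * Real.log X ^ 2) * (X / 8) / P1 K X := by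
      ring
    rw [this, div_le_iff₀ hP0]
    calc 16 * C * Real.log X ^ 2 * (X / 8) ≤ P1 K X * κ * (X / 8) := by gcongr
      _ = _ := by ring
  · refine le_trans (le_of_eq ?_) b4
    ring

end Crest.Agent.R27.Fin

namespace Crest.Agent.R27

open Filter

theorem s37 (hK : StKum) (hM : StMain27) (a : ℤ) (ha : a ≠ -1) (hsq : ¬ IsSquare a) :
    ∃ c : ℝ, 0 < c ∧ ∃ x₀ : ℝ, 2 ≤ x₀ ∧ ∀ x : ℝ, x₀ ≤ x →
      c * x / Real.log x ^ 2 ≤
        (Set.ncard {p : ℕ | p.Prime ∧ x < (p : ℝ) ∧ (p : ℝ) < 2 * x ∧ ¬ ((p : ℤ) ∣ a) ∧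
          orderOf ((a : ℤ) : ZMod p) = p - 1} : ℝ) := by
  obtain ⟨κ, hκ, hev⟩ := Fin.ev_lower hK hM a ha hsq
  obtain ⟨X₀, hX₀⟩ := eventually_atTop.1 hev
  refine ⟨κ / 2, by positivity, max 2 X₀, le_max_left _ _, fun x hx => ?_⟩
  have hx2 : 2 ≤ x := (le_max_left _ _).trans hx
  have hxX : X₀ ≤ x := (le_max_right _ _).trans hx
  have h := hX₀ (2 * x) (by linarith)
  rw [show 2 * x / 2 = x by ring] at h
  have hl : 0 < Real.log x := Real.log_pos (by linarith)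
  have hl2 : Real.log (2 * x) ≤ 2 * Real.log x := by
    rw [Real.log_mul (by norm_num) (by linarith)]
    have := Real.log_le_log (by norm_num) hx2
    linarith
  have hl0 : 0 ≤ Real.log (2 * x) := Real.log_nonneg (by linarith)
  change _ ≤ ((Fin.Tset a x).ncard : ℝ)
  rw [div_le_iff₀ (by positivity)]
  have h2 : ((Fin.Tset a x).ncard : ℝ) * Real.log (2 * x) ^ 2 ≤
      ((Fin.Tset a x).ncard : ℝ) * (2 * Real.log x) ^ 2 := by gcongr
  nlinarith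

end Crest.Agent.R27
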